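import Vale.Agent.P092.QT.H156.Sm

/-!
P092 (helper650), team A, block [ALG2]: the action `α_h b (x) = lim V_v (b x) V_v⁻¹` (`κ v → h`) of
the second group on the smooth fields.
-/

set_option linter.all false

open scoped InnerProductSpace Topology ENNReal
open Filter ContinuousLinearMap MeasureTheory
open Vale.Agent.P092.H160
open Vale.Agent.P092.QT.H156.Sm

namespace Vale.Agent.P092.QT.H650

/-- `V_v (b x) V_v⁻¹` -/
def cj {Λ G K : Type} [Group Λ] [NormedAddCommGroup K] [InnerProductSpace ℂ K] [CompleteSpace K]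
    (V : Λ →* (K →L[ℂ] K)) (v : Λ) (b : G → K →L[ℂ] K) (x : G) : K →L[ℂ] K := V v * b x * V v⁻¹

/-- The limit of `V_v (b x) V_v⁻¹` as `κ v → h`. -/
noncomputable def al {Λ G H K : Type} [Group Λ] [Group H] [TopologicalSpace H]
    [NormedAddCommGroup K] [InnerProductSpace ℂ K] [CompleteSpace K]
    (κ : Λ →* H) (V : Λ →* (K →L[ℂ] K)) (h : H) (b : G → K →L[ℂ] K) (x : G) : K →L[ℂ] K :=
  limUnder (comap κ (𝓝 h)) fun v => cj V v b x

section al

variable {Γ Λ G H K : Type} [Group Γ] [Group Λ] [Group G] [Group H]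
  [TopologicalSpace G] [TopologicalSpace H] [IsTopologicalGroup G] [IsTopologicalGroup H]
  [NormedAddCommGroup K] [InnerProductSpace ℂ K] [CompleteSpace K]
  {ρ : Γ →* (K →L[ℂ] K)} {V : Λ →* (K →L[ℂ] K)} {ω : K} {ι : Γ →* G} {κ : Λ →* H}
  {a b : G → K →L[ℂ] K}

theorem comap_neBot (hd : DenseRange κ) (h : H) : (comap κ (𝓝 h)).NeBot := by
  rw [comap_neBot_iff]
  intro t ht
  obtain ⟨_, h1, v, rfl⟩ := mem_closure_iff_nhds.1 (hd h) t ht
  exact ⟨v, h1⟩

/-! ### The conjugation -/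

theorem norm_cj (hF : Frm ρ V ω) (v : Λ) (b : G → K →L[ℂ] K) (x : G) : ‖cj V v b x‖ ≤ ‖b x‖ := by
  calc ‖V v * b x * V v⁻¹‖ ≤ ‖V v‖ * ‖b x‖ * ‖V v⁻¹‖ :=
        (norm_mul_le _ _).trans (by gcongr; exact norm_mul_le _ _)
    _ ≤ 1 * ‖b x‖ * 1 := by
        gcongr
        · exact hF.norm_le v
        · exact hF.norm_le _
    _ = ‖b x‖ := by ring

theorem cj_mul_left (v w : Λ) (b : G → K →L[ℂ] K) (x : G) :
    cj V (v * w) b x = cj V v (cj V w b) x := by
  rw [cj, cj, cj, map_mul, mul_inv_rev, map_mul]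
  simp only [mul_assoc]

theorem cj_one (b : G → K →L[ℂ] K) (x : G) : cj V (1 : Λ) b x = b x := by
  rw [cj, inv_one, map_one, one_mul, mul_one]

theorem cj_sub (v : Λ) (a b : G → K →L[ℂ] K) (x : G) :
    cj V v (fun x => a x - b x) x = cj V v a x - cj V v b x := by
  simp only [cj, mul_sub, sub_mul]

theorem cj_add (v : Λ) (a b : G → K →L[ℂ] K) (x : G) :
    cj V v (fun x => a x + b x) x = cj V v a x + cj V v b x := by
  simp only [cj, mul_add, add_mul]

theorem cj_smul (v : Λ) (c : ℂ) (b : G → K →L[ℂ] K) (x : G) :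
    cj V v (fun x => c • b x) x = c • cj V v b x := by
  simp only [cj, mul_smul_comm, smul_mul_assoc]

theorem cj_mul (hF : Frm ρ V ω) (v : Λ) (a b : G → K →L[ℂ] K) (x : G) :
    cj V v (fun x => a x * b x) x = cj V v a x * cj V v b x := by
  calc V v * (a x * b x) * V v⁻¹ = V v * a x * 1 * b x * V v⁻¹ := by
        rw [mul_one]; simp only [mul_assoc]
    _ = V v * a x * (V v⁻¹ * V v) * b x * V v⁻¹ := by rw [hF.inv_mul]
    _ = _ := by simp only [cj, mul_assoc]

theorem cj_adj (hF : Frm ρ V ω) (v : Λ) (b : G → K →L[ℂ] K) (x : G) :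
    cj V v (fun x => adjoint (b x)) x = adjoint (cj V v b x) := by
  change V v * adjoint (b x) * V v⁻¹ = star (V v * b x * V v⁻¹)
  rw [star_mul, star_mul, star_eq_adjoint (V v⁻¹), hF.adj, inv_inv, star_eq_adjoint (V v), hF.adj,
    star_eq_adjoint, mul_assoc]

theorem norm_cj_sub (hF : Frm ρ V ω) (v w : Λ) (b : G → K →L[ℂ] K) (x : G) :
    ‖cj V v b x - cj V w b x‖ ≤ ‖cj V (w⁻¹ * v) b x - b x‖ := by
  have e : cj V v b x - cj V w b x = cj V w (fun x => cj V (w⁻¹ * v) b x - b x) x := by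
    rw [cj_sub, ← cj_mul_left, mul_inv_cancel_left]
  rw [e]
  exact norm_cj hF w _ x

/-! ### The limit -/

/-- The conjugates form a Cauchy family, uniformly. -/
theorem cauchy_cj (hF : Frm ρ V ω) (hb : ACont κ V b) (h : H) {ε : ℝ} (hε : 0 < ε) :
    ∃ t ∈ comap κ (𝓝 h), ∀ v ∈ t, ∀ w ∈ t, ∀ x, ‖cj V v b x - cj V w b x‖ ≤ ε := by
  obtain ⟨U, hU, h1⟩ := hb ε hε
  have h2 : Tendsto (fun p : H × H => p.1⁻¹ * p.2) (𝓝 h ×ˢ 𝓝 h) (𝓝 1) := by
    have h3 : Continuous fun p : H × H => p.1⁻¹ * p.2 := by fun_prop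
    have h4 := h3.tendsto (h, h)
    rw [nhds_prod_eq] at h4
    simpa using h4
  obtain ⟨W, hW, h3⟩ := Filter.mem_prod_same_iff.1 (h2 hU)
  refine ⟨κ ⁻¹' W, preimage_mem_comap hW, fun v hv w hw x => ?_⟩
  refine (norm_cj_sub hF v w b x).trans (h1 _ ?_ x)
  have h4 : (κ w, κ v) ∈ W ×ˢ W := ⟨hw, hv⟩
  have h5 := h3 h4
  rw [map_mul, map_inv]
  exact h5

theorem tendsto_al (hF : Frm ρ V ω) (hd : DenseRange κ) (hb : ACont κ V b) (h : H) (x : G) :
    Tendsto (fun v => cj V v b x) (comap κ (𝓝 h)) (𝓝 (al κ V h b x)) := by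
  haveI := comap_neBot hd h
  have h1 : Cauchy (map (fun v => cj V v b x) (comap κ (𝓝 h))) := by
    rw [Metric.cauchy_iff]
    refine ⟨inferInstance, fun ε hε => ?_⟩
    obtain ⟨t, ht, h2⟩ := cauchy_cj hF hb h (half_pos hε)
    refine ⟨_, image_mem_map ht, ?_⟩
    rintro _ ⟨v, hv, rfl⟩ _ ⟨w, hw, rfl⟩
    rw [dist_eq_norm]
    linarith [h2 v hv w hw x]
  exact h1.le_nhds_lim

/-- The limit is uniform in `x`. -/
theorem al_spec (hF : Frm ρ V ω) (hd : DenseRange κ) (hb : ACont κ V b) (h : H) {ε : ℝ}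
    (hε : 0 < ε) : ∀ᶠ v in comap κ (𝓝 h), ∀ x, ‖cj V v b x - al κ V h b x‖ ≤ ε := by
  haveI := comap_neBot hd h
  obtain ⟨t, ht, h2⟩ := cauchy_cj hF hb h hε
  filter_upwards [ht] with v hv x
  have h3 : Tendsto (fun w => ‖cj V v b x - cj V w b x‖) (comap κ (𝓝 h))
      (𝓝 ‖cj V v b x - al κ V h b x‖) := ((tendsto_al hF hd hb h x).const_sub _).norm
  refine le_of_tendsto h3 ?_
  filter_upwards [ht] with w hw
  exact h2 v hv w hw x

theorem al_unique (hF : Frm ρ V ω) (hd : DenseRange κ) (hb : ACont κ V b) {h : H} {x : G}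
    {T : K →L[ℂ] K} (hT : Tendsto (fun v => cj V v b x) (comap κ (𝓝 h)) (𝓝 T)) :
    al κ V h b x = T := by
  haveI := comap_neBot hd h
  exact tendsto_nhds_unique (tendsto_al hF hd hb h x) hT

theorem norm_al_le (hF : Frm ρ V ω) (hd : DenseRange κ) (hb : ACont κ V b) (h : H) (x : G) :
    ‖al κ V h b x‖ ≤ ‖b x‖ := by
  haveI := comap_neBot hd h
  refine le_of_tendsto (tendsto_al hF hd hb h x).norm (Eventually.of_forall fun v => ?_)
  exact norm_cj hF v b x

theorem al_add (hF : Frm ρ V ω) (hd : DenseRange κ) (ha : ACont κ V a) (hb : ACont κ V b) (h : H)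
    (x : G) : al κ V h (fun x => a x + b x) x = al κ V h a x + al κ V h b x := by
  refine al_unique hF hd (ha.add hb) ?_
  simp only [cj_add]
  exact (tendsto_al hF hd ha h x).add (tendsto_al hF hd hb h x)

theorem al_sub (hF : Frm ρ V ω) (hd : DenseRange κ) (ha : ACont κ V a) (hb : ACont κ V b) (h : H)
    (x : G) : al κ V h (fun x => a x - b x) x = al κ V h a x - al κ V h b x := by
  refine al_unique hF hd (ha.sub hb) ?_
  simp only [cj_sub]
  exact (tendsto_al hF hd ha h x).sub (tendsto_al hF hd hb h x)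

theorem al_smul (hF : Frm ρ V ω) (hd : DenseRange κ) (hb : ACont κ V b) (c : ℂ) (h : H)
    (x : G) : al κ V h (fun x => c • b x) x = c • al κ V h b x := by
  refine al_unique hF hd (ACont.smul c hb) ?_
  simp only [cj_smul]
  exact (tendsto_al hF hd hb h x).const_smul c

theorem al_zero (hF : Frm ρ V ω) (hd : DenseRange κ) (h : H) (x : G) :
    al κ V h (fun _ : G => (0 : K →L[ℂ] K)) x = 0 := by
  refine al_unique hF hd ACont.zero ?_
  simp only [cj, mul_zero, zero_mul]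
  exact tendsto_const_nhds

theorem al_mul (hF : Frm ρ V ω) (hd : DenseRange κ) (ha : ACont κ V a) (hb : ACont κ V b)
    (ba : ∃ C, ∀ x, ‖a x‖ ≤ C) (bb : ∃ C, ∀ x, ‖b x‖ ≤ C) (h : H)
    (x : G) : al κ V h (fun x => a x * b x) x = al κ V h a x * al κ V h b x := by
  refine al_unique hF hd (ACont.mul hF ha hb ba bb) ?_
  simp only [cj_mul hF]
  exact (tendsto_al hF hd ha h x).mul (tendsto_al hF hd hb h x)

theorem al_adj (hF : Frm ρ V ω) (hd : DenseRange κ) (hb : ACont κ V b) (h : H) (x : G) :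
    al κ V h (fun x => adjoint (b x)) x = adjoint (al κ V h b x) := by
  refine al_unique hF hd (ACont.adj hF hb) ?_
  simp only [cj_adj hF]
  exact ((LinearIsometryEquiv.continuous _).tendsto _).comp (tendsto_al hF hd hb h x)

theorem al_rt (κ : Λ →* H) (V : Λ →* (K →L[ℂ] K)) (b : G → K →L[ℂ] K) (h : H) (z x : G) :
    al κ V h (fun x => b (x * z)) x = al κ V h b (x * z) := rfl

theorem al_coe (hF : Frm ρ V ω) (hd : DenseRange κ) (hb : ACont κ V b) (w : Λ) (x : G) :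
    al κ V (κ w) b x = cj V w b x := by
  haveI := comap_neBot hd (κ w)
  rw [← sub_eq_zero, ← norm_eq_zero]
  refine le_antisymm (le_of_forall_pos_le_add fun ε hε => ?_) (norm_nonneg _)
  rw [zero_add]
  have h3 : Tendsto (fun v => ‖cj V v b x - cj V w b x‖) (comap κ (𝓝 (κ w)))
      (𝓝 ‖al κ V (κ w) b x - cj V w b x‖) := ((tendsto_al hF hd hb _ x).sub_const _).norm
  refine le_of_tendsto h3 ?_
  obtain ⟨t, ht, h2⟩ := cauchy_cj hF hb (κ w) hε
  obtain ⟨s, hs, hst⟩ := ht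
  filter_upwards [preimage_mem_comap hs] with v hv
  exact h2 v (hst hv) w (hst (show κ w ∈ s from mem_of_mem_nhds hs)) x

theorem al_one (hF : Frm ρ V ω) (hd : DenseRange κ) (hb : ACont κ V b) (x : G) :
    al κ V 1 b x = b x := by
  have h1 := al_coe hF hd hb 1 x
  rw [map_one, cj_one] at h1
  exact h1

/-- `α_h b` is a field. -/
theorem fd_al (hF : Frm ρ V ω) (hd : DenseRange κ) (hf : Fd ι ρ b) (hb : ACont κ V b) (h : H) :
    Fd ι ρ (al κ V h b) where
  equiv := fun γ x => by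
    refine al_unique hF hd hb ?_
    have h1 : ∀ v, cj V v b (ι γ * x) = ρ γ * cj V v b x * ρ γ⁻¹ := fun v =>
      (hf.conj hF v).equiv γ x
    simp only [h1]
    exact ((tendsto_al hF hd hb h x).const_mul _).mul_const _
  bdd := by
    obtain ⟨C, hC⟩ := hf.bdd
    exact ⟨C, fun x => (norm_al_le hF hd hb h x).trans (hC x)⟩
  rcont := fun ε hε => by
    obtain ⟨W, hW, h2⟩ := hf.rcont ε hε
    refine ⟨W, hW, fun y hy x => ?_⟩
    haveI := comap_neBot hd h
    have h3 : Tendsto (fun v => ‖cj V v b (x * y) - cj V v b x‖) (comap κ (𝓝 h))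
      (𝓝 ‖al κ V h b (x * y) - al κ V h b x‖) :=
      ((tendsto_al hF hd hb h (x * y)).sub (tendsto_al hF hd hb h x)).norm
    refine le_of_tendsto h3 (Eventually.of_forall fun v => ?_)
    have e : cj V v b (x * y) - cj V v b x = cj V v (fun x => b (x * y) - b x) x := by
      rw [cj_sub]; rfl
    rw [e]
    exact (norm_cj hF v _ x).trans (h2 y hy x)

/-- `α_h b` is continuous for the conjugation. -/
theorem acont_al (hF : Frm ρ V ω) (hd : DenseRange κ) (hb : ACont κ V b) (h : H) :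
    ACont κ V (al κ V h b) := fun ε hε => by
  obtain ⟨U, hU, h1⟩ := hb ε hε
  have h2 : Tendsto (fun p : H × H => p.1⁻¹ * p.2 * p.1) (𝓝 h ×ˢ 𝓝 1) (𝓝 1) := by
    have h3 : Continuous fun p : H × H => p.1⁻¹ * p.2 * p.1 := by fun_prop
    have h4 := h3.tendsto (h, 1)
    rw [nhds_prod_eq] at h4
    simpa using h4
  obtain ⟨W, hW, W', hW', h3⟩ := Filter.mem_prod_iff.1 (h2 hU)
  refine ⟨W', hW', fun v hv x => ?_⟩
  haveI := comap_neBot hd h
  have h4 : Tendsto (fun w => ‖V v * cj V w b x * V v⁻¹ - cj V w b x‖) (comap κ (𝓝 h))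
      (𝓝 ‖V v * al κ V h b x * V v⁻¹ - al κ V h b x‖) :=
    ((((tendsto_al hF hd hb h x).const_mul _).mul_const _).sub (tendsto_al hF hd hb h x)).norm
  refine le_of_tendsto h4 ?_
  filter_upwards [preimage_mem_comap hW] with w hw
  have e : V v * cj V w b x * V v⁻¹ = cj V (v * w) b x := by
    rw [cj_mul_left]; rfl
  rw [e]
  refine (norm_cj_sub hF _ _ b x).trans (h1 _ ?_ x)
  have h5 : ((κ w, κ v) : H × H) ∈ W ×ˢ W' := ⟨hw, hv⟩
  have h6 := h3 h5
  rw [map_mul, map_mul, map_inv, ← mul_assoc]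
  exact h6

/-- The group law. -/
theorem al_al (hF : Frm ρ V ω) (hd : DenseRange κ) (hb : ACont κ V b) (g h : H) (x : G) :
    al κ V g (al κ V h b) x = al κ V (g * h) b x := by
  haveI := comap_neBot hd g
  haveI := comap_neBot hd h
  haveI := comap_neBot hd (g * h)
  rw [← sub_eq_zero, ← norm_eq_zero]
  refine le_antisymm (le_of_forall_pos_le_add fun ε hε => ?_) (norm_nonneg _)
  rw [zero_add]
  have hε4 : 0 < ε / 4 := by positivity
  have h2 : Tendsto (fun p : H × H => p.1 * p.2) (𝓝 g ×ˢ 𝓝 h) (𝓝 (g * h)) := by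
    have h3 : Continuous fun p : H × H => p.1 * p.2 := by fun_prop
    have h4 := h3.tendsto (g, h)
    rwa [nhds_prod_eq] at h4
  obtain ⟨t, ht, h5⟩ := al_spec hF hd hb (g * h) hε4
  obtain ⟨W, hW, W', hW', h3⟩ := Filter.mem_prod_iff.1 (h2 ht)
  obtain ⟨v, hv1, hv2⟩ := ((al_spec hF hd (acont_al hF hd hb h) g hε4).and
    (preimage_mem_comap hW)).exists
  obtain ⟨w, hw1, hw2⟩ := ((al_spec hF hd hb h hε4).and (preimage_mem_comap hW')).exists
  have h6 : ‖cj V (v * w) b x - al κ V (g * h) b x‖ ≤ ε / 4 := by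
    have h7 : ((κ v, κ w) : H × H) ∈ W ×ˢ W' := ⟨hv2, hw2⟩
    have h8 := h3 h7
    have h9 : (v * w) ∈ κ ⁻¹' t := by
      rw [Set.mem_preimage, map_mul]; exact h8
    exact h5 h9 x
  have h7 : ‖cj V v (al κ V h b) x - al κ V g (al κ V h b) x‖ ≤ ε / 4 := hv1 x
  have h8 : ‖cj V v (cj V w b) x - cj V v (al κ V h b) x‖ ≤ ε / 4 := by
    rw [← cj_sub]
    exact (norm_cj hF v _ x).trans (hw1 x)
  rw [cj_mul_left] at h6
  have e : al κ V g (al κ V h b) x - al κ V (g * h) b x =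
      -(cj V v (al κ V h b) x - al κ V g (al κ V h b) x) -
      (cj V v (cj V w b) x - cj V v (al κ V h b) x) +
      (cj V v (cj V w b) x - al κ V (g * h) b x) := by abel
  rw [e]
  refine (norm_add_le _ _).trans ?_
  have h9 := norm_sub_le (-(cj V v (al κ V h b) x - al κ V g (al κ V h b) x))
    (cj V v (cj V w b) x - cj V v (al κ V h b) x)
  rw [norm_neg] at h9
  linarith

end al

end Vale.Agent.P092.QT.H650
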