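import Vale.Agent.P092.QT.H650.Alg2

/-!
P092 (helper650), team A, block [ALG2], second part: the action `α_h` and the right translations on
`L²`: the norm is preserved, and they are continuous.
-/

set_option linter.all false

open scoped InnerProductSpace Topology ENNReal
open Filter ContinuousLinearMap MeasureTheory
open Vale.Agent.P092.H160
open Vale.Agent.P092.QT.H156.Sm

namespace Vale.Agent.P092.QT.H650

/-! ### Uniform convergence with constant norms implies convergence in `L²` -/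

section riesz

variable {X K I : Type} [MeasurableSpace X] {μ : Measure X} [NormedAddCommGroup K]
  [InnerProductSpace ℂ K]

theorem norm_toLp_sq {f : X → K} (hf : MemLp f 2 μ) :
    ‖hf.toLp f‖ ^ 2 = (∫ x, ‖f x‖ ^ 2 ∂μ) := by
  have h1 : ⟪hf.toLp f, hf.toLp f⟫_ℂ = ((‖hf.toLp f‖ ^ 2 : ℝ) : ℂ) := by
    rw [inner_self_eq_norm_sq_to_K]; norm_cast
  rw [L2.inner_def] at h1
  have h2 : ∫ x, ⟪hf.toLp f x, hf.toLp f x⟫_ℂ ∂μ = ((∫ x, ‖f x‖ ^ 2 ∂μ : ℝ) : ℂ) := by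
    rw [← integral_complex_ofReal]
    refine integral_congr_ae ?_
    filter_upwards [hf.coeFn_toLp] with x hx
    rw [hx, inner_self_eq_norm_sq_to_K]; norm_cast
  rw [h2] at h1
  exact_mod_cast h1.symm

theorem inner_toLp {f g : X → K} (hf : MemLp f 2 μ) (hg : MemLp g 2 μ) :
    ⟪hf.toLp f, hg.toLp g⟫_ℂ = ∫ x, ⟪f x, g x⟫_ℂ ∂μ := by
  rw [L2.inner_def]
  refine integral_congr_ae ?_
  filter_upwards [hf.coeFn_toLp, hg.coeFn_toLp] with x hx hy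
  rw [hx, hy]

/-- If `f_i → f` uniformly and the `L²` norms of the `f_i` are at most that of `f`, then `f_i → f`
in `L²`. -/
theorem tendsto_toLp {l : Filter I} {f : I → X → K} {g : X → K} (hf : ∀ i, MemLp (f i) 2 μ)
    (hg : MemLp g 2 μ) (hn : ∀ i, ‖(hf i).toLp (f i)‖ ≤ ‖hg.toLp g‖)
    (hu : ∀ ε > 0, ∀ᶠ i in l, ∀ x, ‖f i x - g x‖ ≤ ε) :
    Tendsto (fun i => (hf i).toLp (f i)) l (𝓝 (hg.toLp g)) := by
  have hN : 0 ≤ ‖hg.toLp g‖ := norm_nonneg _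
  -- it is enough to consider the inner products
  suffices hs : ∀ ε > 0, ∀ᶠ i in l, ‖⟪hg.toLp g, (hf i).toLp (f i) - hg.toLp g⟫_ℂ‖ ≤ ε by
    rw [tendsto_iff_norm_sub_tendsto_zero]
    rw [Metric.tendsto_nhds]
    intro ε hε
    filter_upwards [hs (ε ^ 2 / 4) (by positivity)] with i hi
    rw [dist_zero_right, norm_norm]
    have h1 : ‖(hf i).toLp (f i) - hg.toLp g‖ ^ 2 ≤ ε ^ 2 / 2 := by
      have h2 : ‖(hf i).toLp (f i)‖ ^ 2 = ‖((hf i).toLp (f i) - hg.toLp g) + hg.toLp g‖ ^ 2 := by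
        rw [sub_add_cancel]
      have h3 := norm_add_sq (𝕜 := ℂ) ((hf i).toLp (f i) - hg.toLp g) (hg.toLp g)
      have h4 : ‖(hf i).toLp (f i)‖ ^ 2 ≤ ‖hg.toLp g‖ ^ 2 := by
        have := hn i
        gcongr
      have h5 : |(RCLike.re ⟪(hf i).toLp (f i) - hg.toLp g, hg.toLp g⟫_ℂ : ℝ)| ≤ ε ^ 2 / 4 := by
        refine (RCLike.abs_re_le_norm _).trans ?_
        rw [norm_inner_symm]
        exact hi
      have h6 := abs_le.1 h5
      linarith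
    have h2 : ‖(hf i).toLp (f i) - hg.toLp g‖ ^ 2 < ε ^ 2 := by
      have : 0 < ε ^ 2 := by positivity
      linarith
    exact lt_of_pow_lt_pow_left₀ 2 hε.le h2
  intro ε hε
  obtain ⟨δ, hδ0, hδ⟩ : ∃ δ : ℝ, 0 < δ ∧ δ * (2 * ‖hg.toLp g‖) ≤ ε / 2 := by
    refine ⟨ε / (2 * (2 * ‖hg.toLp g‖ + 1)), by positivity, ?_⟩
    rw [div_mul_eq_mul_div, div_le_div_iff₀ (by positivity) (by positivity)]
    nlinarith
  obtain ⟨s, hs, hsμ, hsg⟩ := hg.exists_eLpNorm_indicator_compl_lt (p := 2) (by simp)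
    (ε := ENNReal.ofReal δ) (by simpa using hδ0)
  -- cut `g`
  have hg1 : MemLp (s.indicator g) 2 μ := hg.indicator hs
  have hg2 : MemLp (sᶜ.indicator g) 2 μ := hg.indicator hs.compl
  have hsplit : hg.toLp g = hg1.toLp _ + hg2.toLp _ := by
    rw [← MemLp.toLp_add]
    refine MemLp.toLp_congr _ _ (Eventually.of_forall fun x => ?_)
    rw [Pi.add_apply, Set.indicator_self_add_compl_apply]
  have hg2n : ‖hg2.toLp _‖ ≤ δ := by
    rw [Lp.norm_toLp]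
    refine ENNReal.toReal_le_of_le_ofReal hδ0.le hsg.le
  obtain ⟨M, hM⟩ : ∃ M : ℝ, M = ∫ x in s, ‖g x‖ ∂μ := ⟨_, rfl⟩
  have hM0 : 0 ≤ M := by rw [hM]; exact integral_nonneg fun x => norm_nonneg _
  haveI : IsFiniteMeasure (μ.restrict s) := ⟨by rwa [Measure.restrict_apply_univ]⟩
  have hgi : Integrable g (μ.restrict s) :=
    (hg.restrict s).integrable (by norm_num)
  filter_upwards [hu (ε / (2 * (M + 1))) (by positivity)] with i hi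
  rw [hsplit, inner_add_left]
  refine (norm_add_le _ _).trans ?_
  have e1 : ‖⟪hg1.toLp _, (hf i).toLp (f i) - (hg1.toLp _ + hg2.toLp _)⟫_ℂ‖ ≤ ε / 2 := by
    rw [← hsplit, ← MemLp.toLp_sub, inner_toLp hg1 ((hf i).sub hg)]
    have e2 : ∀ x, ⟪s.indicator g x, (f i - g) x⟫_ℂ = s.indicator (fun x => ⟪g x, f i x - g x⟫_ℂ) x := by
      intro x
      by_cases hx : x ∈ s
      · rw [Set.indicator_of_mem hx, Set.indicator_of_mem hx]; rfl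
      · rw [Set.indicator_of_notMem hx, Set.indicator_of_notMem hx, inner_zero_left]
    simp only [e2]
    rw [integral_indicator hs]
    refine (norm_integral_le_integral_norm _).trans ?_
    calc ∫ x in s, ‖⟪g x, f i x - g x⟫_ℂ‖ ∂μ ≤ ∫ x in s, ‖g x‖ * (ε / (2 * (M + 1))) ∂μ := by
          refine integral_mono_of_nonneg (Eventually.of_forall fun x => norm_nonneg _)
            (hgi.norm.mul_const _) (Eventually.of_forall fun x => ?_)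
          refine (norm_inner_le_norm _ _).trans ?_
          exact mul_le_mul_of_nonneg_left (hi x) (norm_nonneg _)
      _ = M * (ε / (2 * (M + 1))) := by rw [integral_mul_const, hM]
      _ ≤ (M + 1) * (ε / (2 * (M + 1))) := by gcongr; linarith
      _ = ε / 2 := by field_simp
  have e3 : ‖⟪hg2.toLp _, (hf i).toLp (f i) - (hg1.toLp _ + hg2.toLp _)⟫_ℂ‖ ≤ ε / 2 := by
    refine (norm_inner_le_norm _ _).trans (le_trans ?_ hδ)
    refine mul_le_mul hg2n ?_ (norm_nonneg _) hδ0.le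
    rw [← hsplit]
    refine (norm_sub_le _ _).trans ?_
    linarith [hn i]
  linarith

end riesz

/-! ### The invariance of the norm -/

section inv

variable {Γ Λ G H K : Type} [Group Γ] [Group Λ] [Group G] [Group H]
  [TopologicalSpace G] [TopologicalSpace H] [IsTopologicalGroup G] [IsTopologicalGroup H]
  [MeasurableSpace G] [BorelSpace G] {μ : Measure G}
  [NormedAddCommGroup K] [InnerProductSpace ℂ K] [CompleteSpace K]
  {ρ : Γ →* (K →L[ℂ] K)} {V : Λ →* (K →L[ℂ] K)} {ω : K} {ι : Γ →* G} {κ : Λ →* H}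
  {a b : G → K →L[ℂ] K}

theorem tsum_enorm_sq (hR : TRep ρ ω) : ∃ C : ℝ≥0∞, C ≠ 0 ∧ C ≠ ∞ ∧
    ∀ ξ : K, ∑' g, ‖⟪ρ g ω, ξ⟫_ℂ‖ₑ ^ 2 = C * ‖ξ‖ₑ ^ 2 := by
  obtain ⟨C, hC, h2⟩ := hR.frame
  refine ⟨ENNReal.ofReal C, by simpa using hC, ENNReal.ofReal_ne_top, fun v => ?_⟩
  have h4 : ∀ γ, ‖⟪ρ γ ω, v⟫_ℂ‖ₑ ^ 2 = ENNReal.ofReal (‖⟪ρ γ ω, v⟫_ℂ‖ ^ 2) := fun γ => by
    rw [← ofReal_norm_eq_enorm, ENNReal.ofReal_pow (norm_nonneg _)]
  simp_rw [h4]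
  rw [← ENNReal.ofReal_tsum_of_nonneg (fun _ => by positivity) (h2 v).summable, (h2 v).tsum_eq,
    ← ofReal_norm_eq_enorm, ← ENNReal.ofReal_pow (norm_nonneg _), ← ENNReal.ofReal_mul hC.le]

theorem fd_apply' (hb : Fd ι ρ b) (hR : TRep ρ ω) (g : Γ) (x : G) (ξ : K) :
    b x (ρ g ξ) = ρ g (b (ι g⁻¹ * x) ξ) := by
  have h1 : b (ι g * (ι g⁻¹ * x)) = ρ g * b (ι g⁻¹ * x) * ρ g⁻¹ := hb.equiv g _
  rw [← mul_assoc, ← map_mul, mul_inv_cancel, map_one, one_mul] at h1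
  rw [h1, mul_ap, mul_ap, hR.inv_apply]

/-- The trace property for continuous fields. -/
theorem lintegral_adj [Countable Γ] [μ.IsMulLeftInvariant] (hR : TRep ρ ω) (hb : Fd ι ρ b) :
    ∫⁻ x, ‖adjoint (b x) ω‖ₑ ^ 2 ∂μ = ∫⁻ x, ‖b x ω‖ₑ ^ 2 ∂μ := by
  have hb' : Fd ι ρ (fun x => adjoint (b x)) := hb.adj hR
  have m2 : ∀ g : Γ, Measurable fun x => ‖⟪ρ g⁻¹ ω, adjoint (b x) ω⟫_ℂ‖ₑ ^ 2 := fun g =>
    ((Continuous.inner continuous_const (hb'.continuous_apply ω)).measurable.enorm).pow_const 2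
  have e0 : ∀ g x, ⟪ρ g ω, b x ω⟫_ℂ = ⟪adjoint (b (ι g⁻¹ * x)) ω, ρ g⁻¹ ω⟫_ℂ := by
    intro g x
    rw [← adjoint_inner_left, fd_apply' hb' hR g x ω, hR.inner_left]
  have e3 : ∀ g : Γ, ∀ x, ‖⟪adjoint (b x) ω, ρ g⁻¹ ω⟫_ℂ‖ₑ ^ 2 =
      ‖⟪ρ g⁻¹ ω, adjoint (b x) ω⟫_ℂ‖ₑ ^ 2 := by
    intro g x
    rw [← inner_conj_symm]
    congr 1
    exact (enorm_eq_iff_norm_eq).mpr (RCLike.norm_conj _)
  obtain ⟨C, hC0, hC1, hpar⟩ := tsum_enorm_sq hR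
  have e1 : ∀ x, C * ‖b x ω‖ₑ ^ 2 = ∑' g, ‖⟪ρ g⁻¹ ω, adjoint (b (ι g⁻¹ * x)) ω⟫_ℂ‖ₑ ^ 2 := by
    intro x
    rw [← hpar]
    exact tsum_congr fun g => by rw [e0, e3]
  have e2 : ∀ x, C * ‖adjoint (b x) ω‖ₑ ^ 2 = ∑' g, ‖⟪ρ g⁻¹ ω, adjoint (b x) ω⟫_ℂ‖ₑ ^ 2 := by
    intro x
    rw [← hpar]
    exact ((Equiv.inv Γ).tsum_eq fun g => ‖⟪ρ g ω, adjoint (b x) ω⟫_ℂ‖ₑ ^ 2).symm
  refine (ENNReal.mul_right_inj hC0 hC1).mp ?_
  rw [← lintegral_const_mul' _ _ hC1, ← lintegral_const_mul' _ _ hC1]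
  simp only [e1, e2]
  rw [lintegral_tsum fun g => (m2 g).aemeasurable, lintegral_tsum fun g => ?_]
  · refine tsum_congr fun g => ?_
    exact ((measurePreserving_mul_left μ (ι g⁻¹)).lintegral_comp (m2 g)).symm
  · exact ((m2 g).comp (measurable_const_mul _)).aemeasurable

theorem cj_omega (hF : Frm ρ V ω) (v : Λ) (x : G) : ‖cj V v b x ω‖ₑ = ‖b x (V v⁻¹ ω)‖ₑ := by
  rw [cj, mul_ap, mul_ap]
  exact (enorm_eq_iff_norm_eq).mpr (hF.norm_map v _)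

theorem lintegral_cj [Countable Γ] [μ.IsMulLeftInvariant] (hF : Frm ρ V ω) (hb : Fd ι ρ b)
    (v : Λ) : ∫⁻ x, ‖cj V v b x ω‖ₑ ^ 2 ∂μ = ∫⁻ x, ‖b x ω‖ₑ ^ 2 ∂μ := by
  simp only [cj_omega hF]
  have h1 : Fd ι ρ (fun x => b x * V v⁻¹) := hb.rm hF.reg (hF.comm v⁻¹)
  have h2 := lintegral_adj (μ := μ) hF.reg h1
  have h3 := lintegral_adj (μ := μ) hF.reg hb
  have e1 : ∀ x, adjoint (b x * V v⁻¹) ω = V v (adjoint (b x) ω) := by
    intro x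
    rw [← star_eq_adjoint, star_mul, star_eq_adjoint (V v⁻¹), hF.adj, inv_inv]; rfl
  have e2 : ∀ x, ‖V v (adjoint (b x) ω)‖ₑ = ‖adjoint (b x) ω‖ₑ := fun x =>
    (enorm_eq_iff_norm_eq).mpr (hF.norm_map v _)
  simp only [e1, e2] at h2
  rw [h3] at h2
  exact h2.symm

/-- A sequence of conjugations which converges uniformly to `α_h b`. -/
theorem exists_seq (hF : Frm ρ V ω) (hd : DenseRange κ) (hb : ACont κ V b) (h : H) :
    ∃ v : ℕ → Λ, ∀ n x, ‖cj V (v n) b x - al κ V h b x‖ ≤ 1 / (n + 1) := by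
  haveI := comap_neBot hd h
  have h1 : ∀ n : ℕ, ∃ v, ∀ x, ‖cj V v b x - al κ V h b x‖ ≤ 1 / (n + 1) := fun n =>
    (al_spec hF hd hb h (by positivity)).exists
  choose v hv using h1
  exact ⟨v, hv⟩

theorem lintegral_al_le [Countable Γ] [μ.IsMulLeftInvariant] (hF : Frm ρ V ω)
    (hd : DenseRange κ) (hf : Fd ι ρ b) (hb : ACont κ V b) (h : H) :
    ∫⁻ x, ‖al κ V h b x ω‖ₑ ^ 2 ∂μ ≤ ∫⁻ x, ‖b x ω‖ₑ ^ 2 ∂μ := by
  obtain ⟨v, hv⟩ := exists_seq hF hd hb h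
  have h1 : ∀ x, Tendsto (fun n => cj V (v n) b x) atTop (𝓝 (al κ V h b x)) := by
    intro x
    rw [tendsto_iff_norm_sub_tendsto_zero]
    exact squeeze_zero (fun n => norm_nonneg _) (fun n => hv n x)
      tendsto_one_div_add_atTop_nhds_zero_nat
  have h2 : ∀ x, Tendsto (fun n => ‖cj V (v n) b x ω‖ₑ ^ 2) atTop
      (𝓝 (‖al κ V h b x ω‖ₑ ^ 2)) := by
    intro x
    have h3 : Tendsto (fun n => cj V (v n) b x ω) atTop (𝓝 (al κ V h b x ω)) :=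
      ((ContinuousLinearMap.apply ℂ K ω).continuous.tendsto _).comp (h1 x)
    exact ((ENNReal.continuous_pow 2).tendsto _).comp h3.enorm
  have h3 : ∀ x, ‖al κ V h b x ω‖ₑ ^ 2 = liminf (fun n => ‖cj V (v n) b x ω‖ₑ ^ 2) atTop :=
    fun x => (h2 x).liminf_eq.symm
  simp only [h3]
  refine (lintegral_liminf_le fun n => ?_).trans ?_
  · exact (((hf.conj hF (v n)).continuous_apply ω).enorm.measurable).pow_const 2
  · have h4 : ∀ n, ∫⁻ x, ‖cj V (v n) b x ω‖ₑ ^ 2 ∂μ = ∫⁻ x, ‖b x ω‖ₑ ^ 2 ∂μ := fun n =>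
      lintegral_cj hF hf (v n)
    simp only [h4]
    rw [liminf_const]

theorem lintegral_al [Countable Γ] [μ.IsMulLeftInvariant] (hF : Frm ρ V ω)
    (hd : DenseRange κ) (hf : Fd ι ρ b) (hb : ACont κ V b) (h : H) :
    ∫⁻ x, ‖al κ V h b x ω‖ₑ ^ 2 ∂μ = ∫⁻ x, ‖b x ω‖ₑ ^ 2 ∂μ := by
  refine le_antisymm (lintegral_al_le hF hd hf hb h) ?_
  have h1 := lintegral_al_le (μ := μ) hF hd (fd_al hF hd hf hb h) (acont_al hF hd hb h) h⁻¹
  have h2 : ∀ x, al κ V h⁻¹ (al κ V h b) x = b x := fun x => by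
    rw [al_al hF hd hb, inv_mul_cancel, al_one hF hd hb]
  simp only [h2] at h1
  exact h1

theorem lintegral_rt [μ.IsMulRightInvariant] (b : G → K →L[ℂ] K) (ω : K) (z : G) :
    ∫⁻ x, ‖b (x * z) ω‖ₑ ^ 2 ∂μ = ∫⁻ x, ‖b x ω‖ₑ ^ 2 ∂μ :=
  lintegral_mul_right_eq_self (fun x => ‖b x ω‖ₑ ^ 2) z

end inv

section memLp

variable {X K : Type} [MeasurableSpace X] {μ : Measure X} [NormedAddCommGroup K]

theorem memLp_two_iff {f : X → K} (hf : AEStronglyMeasurable f μ) :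
    MemLp f 2 μ ↔ ∫⁻ x, ‖f x‖ₑ ^ 2 ∂μ < ⊤ := by
  have h1 := eLpNorm_lt_top_iff_lintegral_rpow_enorm_lt_top (f := f) (μ := μ) (p := 2)
    two_ne_zero ENNReal.ofNat_ne_top
  simp only [ENNReal.toReal_ofNat, ENNReal.rpow_two] at h1
  exact ⟨fun h => h1.1 h.2, fun h => ⟨hf, h1.2 h⟩⟩

theorem norm_toLp_congr {Y : Type} [MeasurableSpace Y] {ν : Measure Y} {f : X → K} {g : Y → K}
    (hf : MemLp f 2 μ) (hg : MemLp g 2 ν) (h : ∫⁻ x, ‖f x‖ₑ ^ 2 ∂μ = ∫⁻ x, ‖g x‖ₑ ^ 2 ∂ν) :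
    ‖hf.toLp f‖ = ‖hg.toLp g‖ := by
  rw [Lp.norm_toLp, Lp.norm_toLp]
  congr 1
  rw [eLpNorm_eq_lintegral_rpow_enorm_toReal two_ne_zero ENNReal.ofNat_ne_top,
    eLpNorm_eq_lintegral_rpow_enorm_toReal two_ne_zero ENNReal.ofNat_ne_top]
  simp only [ENNReal.toReal_ofNat, ENNReal.rpow_two]
  rw [h]

end memLp

end Vale.Agent.P092.QT.H650
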