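import Vale.Agent.P092.QT.H650.Alg2L

/-!
P092 (helper650), team A, block [ALG2], third part: the smooth fields `Smo` as a `*`-algebra with
the actions `α_h` of the source factor and `r_y` of the target factor, in `L²`.
-/

set_option linter.all false

open scoped InnerProductSpace Topology ENNReal
open Filter ContinuousLinearMap MeasureTheory
open Vale.Agent.P092.H160
open Vale.Agent.P092.QT.H156.Sm

namespace Vale.Agent.P092.QT.H650

section unif

variable {Γ Λ G H K : Type} [Group Γ] [Group Λ] [Group G] [Group H]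
  [TopologicalSpace G] [TopologicalSpace H] [IsTopologicalGroup G] [IsTopologicalGroup H]
  [NormedAddCommGroup K] [InnerProductSpace ℂ K] [CompleteSpace K]
  {ρ : Γ →* (K →L[ℂ] K)} {V : Λ →* (K →L[ℂ] K)} {ω : K} {ι : Γ →* G} {κ : Λ →* H}
  {a b : G → K →L[ℂ] K}

/-- `h ↦ α_h b` is uniformly continuous in the sup norm. -/
theorem al_unif (hF : Frm ρ V ω) (hd : DenseRange κ) (hb : ACont κ V b) {ε : ℝ} (hε : 0 < ε) :
    ∃ U ∈ 𝓝 (1 : H), ∀ g ∈ U, ∀ k x, ‖al κ V (k * g) b x - al κ V k b x‖ ≤ ε := by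
  obtain ⟨U, hU, h1⟩ := hb ε hε
  obtain ⟨O, hOU, hO, h2⟩ := mem_nhds_iff.1 hU
  have h3 : ∀ g ∈ O, ∀ x, ‖al κ V g b x - b x‖ ≤ ε := by
    intro g hg x
    haveI := comap_neBot hd g
    have h4 : Tendsto (fun v => ‖cj V v b x - b x‖) (comap κ (𝓝 g)) (𝓝 ‖al κ V g b x - b x‖) :=
      ((tendsto_al hF hd hb g x).sub_const _).norm
    refine le_of_tendsto h4 ?_
    filter_upwards [preimage_mem_comap (hO.mem_nhds hg)] with v hv
    exact h1 v (hOU hv) x
  refine ⟨O, hO.mem_nhds h2, fun g hg k x => ?_⟩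
  have e : al κ V (k * g) b x - al κ V k b x = al κ V k (fun x => al κ V g b x - b x) x := by
    rw [al_sub hF hd (acont_al hF hd hb g) hb, al_al hF hd hb]
  rw [e]
  refine (norm_al_le hF hd ((acont_al hF hd hb g).sub hb) k x).trans ?_
  exact h3 g hg x

theorem al_unif' (hF : Frm ρ V ω) (hd : DenseRange κ) (hb : ACont κ V b) (k : H) {ε : ℝ}
    (hε : 0 < ε) : ∀ᶠ h in 𝓝 k, ∀ x, ‖al κ V h b x - al κ V k b x‖ ≤ ε := by
  obtain ⟨U, hU, h1⟩ := al_unif hF hd hb hε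
  have h2 : Tendsto (fun h : H => k⁻¹ * h) (𝓝 k) (𝓝 1) := by
    have h3 : Continuous fun h : H => k⁻¹ * h := by fun_prop
    have h4 := h3.tendsto k
    simpa using h4
  filter_upwards [h2 hU] with h hh x
  have h5 := h1 _ hh k x
  rwa [mul_inv_cancel_left] at h5

theorem continuous_al (hF : Frm ρ V ω) (hd : DenseRange κ) (hb : ACont κ V b) (x : G) :
    Continuous fun h => al κ V h b x := by
  rw [continuous_iff_continuousAt]
  intro k
  rw [ContinuousAt, tendsto_iff_norm_sub_tendsto_zero, Metric.tendsto_nhds]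
  intro ε hε
  filter_upwards [al_unif' hF hd hb k (half_pos hε)] with h hh
  rw [dist_zero_right, norm_norm]
  linarith [hh x]

theorem rt_unif (hb : Fd ι ρ b) (z : G) {ε : ℝ} (hε : 0 < ε) :
    ∀ᶠ y in 𝓝 z, ∀ x, ‖b (x * y) - b (x * z)‖ ≤ ε := by
  obtain ⟨U, hU, h1⟩ := hb.rcont ε hε
  have h2 : Tendsto (fun y : G => z⁻¹ * y) (𝓝 z) (𝓝 1) := by
    have h3 : Continuous fun y : G => z⁻¹ * y := by fun_prop
    have h4 := h3.tendsto z
    simpa using h4
  filter_upwards [h2 hU] with y hy x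
  have h3 := h1 _ hy (x * z)
  have e : x * z * (z⁻¹ * y) = x * y := by group
  rwa [e] at h3

/-- `(h, x) ↦ α_h b x` is jointly continuous. -/
theorem continuous_al_uncurry (hF : Frm ρ V ω) (hd : DenseRange κ) (hf : Fd ι ρ b)
    (hb : ACont κ V b) : Continuous fun p : H × G => al κ V p.1 b p.2 := by
  rw [continuous_iff_continuousAt]
  rintro ⟨k, z⟩
  rw [ContinuousAt, tendsto_iff_norm_sub_tendsto_zero, Metric.tendsto_nhds]
  intro ε hε
  have h1 := al_unif' hF hd hb k (half_pos (half_pos hε))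
  have h2 : ∀ᶠ x in 𝓝 z, ‖al κ V k b x - al κ V k b z‖ < ε / 2 := by
    have h3 := ((fd_al hF hd hf hb k).continuous.tendsto z)
    rw [tendsto_iff_norm_sub_tendsto_zero] at h3
    have h4 := (Metric.tendsto_nhds.1 h3) (ε / 2) (by positivity)
    filter_upwards [h4] with x hx
    rwa [dist_zero_right, norm_norm] at hx
  rw [nhds_prod_eq]
  filter_upwards [h1.prod_inl (𝓝 z), h2.prod_inr (𝓝 k)] with p hp1 hp2
  rw [dist_zero_right, norm_norm]
  have e : al κ V p.1 b p.2 - al κ V k b z = (al κ V p.1 b p.2 - al κ V k b p.2) +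
      (al κ V k b p.2 - al κ V k b z) := by abel
  change ‖al κ V p.1 b p.2 - al κ V k b z‖ < ε
  rw [e]
  refine (norm_add_le _ _).trans_lt ?_
  have := hp1 p.2
  linarith

end unif

section smo

variable {Γ Λ G H K : Type} [Group Γ] [Group Λ] [Group G] [Group H]
  [TopologicalSpace G] [TopologicalSpace H] [IsTopologicalGroup G] [IsTopologicalGroup H]
  [SecondCountableTopology G] [MeasurableSpace G] [BorelSpace G] {μ : Measure G}
  [NormedAddCommGroup K] [InnerProductSpace ℂ K] [CompleteSpace K]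
  {ρ : Γ →* (K →L[ℂ] K)} {V : Λ →* (K →L[ℂ] K)} {ω : K} {ι : Γ →* G} {κ : Λ →* H}
  {a b : G → K →L[ℂ] K}

theorem l2_iff (hb : Fd ι ρ b) : L2 ω μ b ↔ ∫⁻ x, ‖b x ω‖ₑ ^ 2 ∂μ < ⊤ :=
  memLp_two_iff (hb.continuous_apply ω).aestronglyMeasurable

theorem smo_zero : Smo ι κ ρ V ω μ (fun _ : G => (0 : K →L[ℂ] K)) where
  toFd := Fd.zero
  acont := ACont.zero
  l2 := by
    have : MemLp (fun _ : G => (0 : K)) 2 μ := MemLp.zero'
    exact this

theorem smo_add (ha : Smo ι κ ρ V ω μ a) (hb : Smo ι κ ρ V ω μ b) :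
    Smo ι κ ρ V ω μ (fun x => a x + b x) where
  toFd := ha.toFd.add hb.toFd
  acont := ACont.add ha.acont hb.acont
  l2 := ha.l2.add hb.l2

theorem smo_sub (ha : Smo ι κ ρ V ω μ a) (hb : Smo ι κ ρ V ω μ b) :
    Smo ι κ ρ V ω μ (fun x => a x - b x) where
  toFd := ha.toFd.sub hb.toFd
  acont := ACont.sub ha.acont hb.acont
  l2 := ha.l2.sub hb.l2

theorem smo_smul (c : ℂ) (hb : Smo ι κ ρ V ω μ b) : Smo ι κ ρ V ω μ (fun x => c • b x) where
  toFd := hb.toFd.smul c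
  acont := ACont.smul c hb.acont
  l2 := hb.l2.const_smul c

/-- Left multiplication by a bounded continuous field. -/
theorem l2_mul (ha : Fd ι ρ a) (hb : Fd ι ρ b) (hb2 : L2 ω μ b) : L2 ω μ (fun x => a x * b x) := by
  obtain ⟨C, hC⟩ := ha.bdd
  refine MemLp.of_le_mul (c := C) hb2 ((ha.mul hb).continuous_apply ω).aestronglyMeasurable
    (Eventually.of_forall fun x => ?_)
  rw [mul_ap]
  refine ((a x).le_opNorm _).trans ?_
  exact mul_le_mul_of_nonneg_right (hC x) (norm_nonneg _)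

theorem smo_mul (hF : Frm ρ V ω) (ha : Smo ι κ ρ V ω μ a) (hb : Smo ι κ ρ V ω μ b) :
    Smo ι κ ρ V ω μ (fun x => a x * b x) where
  toFd := ha.toFd.mul hb.toFd
  acont := ACont.mul hF ha.acont hb.acont ha.bdd hb.bdd
  l2 := l2_mul ha.toFd hb.toFd hb.l2

theorem smo_adj [Countable Γ] [μ.IsMulLeftInvariant] (hF : Frm ρ V ω)
    (hb : Smo ι κ ρ V ω μ b) : Smo ι κ ρ V ω μ (fun x => adjoint (b x)) where
  toFd := hb.toFd.adj hF.reg
  acont := ACont.adj hF hb.acont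
  l2 := by
    rw [l2_iff (hb.toFd.adj hF.reg), lintegral_adj hF.reg hb.toFd]
    exact (l2_iff hb.toFd).1 hb.l2

theorem smo_rt [μ.IsMulRightInvariant] (hb : Smo ι κ ρ V ω μ b) (z : G) :
    Smo ι κ ρ V ω μ (fun x => b (x * z)) where
  toFd := hb.toFd.rt z
  acont := ACont.rt hb.acont z
  l2 := by
    rw [l2_iff (hb.toFd.rt z), lintegral_rt]
    exact (l2_iff hb.toFd).1 hb.l2

theorem smo_cj [Countable Γ] [μ.IsMulLeftInvariant] (hF : Frm ρ V ω)
    (hb : Smo ι κ ρ V ω μ b) (v : Λ) : Smo ι κ ρ V ω μ (cj V v b) where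
  toFd := hb.toFd.conj hF v
  acont := ACont.conj hF hb.acont v
  l2 := (l2_iff (b := cj V v b) (hb.toFd.conj hF v)).2 (by
    rw [lintegral_cj hF hb.toFd]
    exact (l2_iff hb.toFd).1 hb.l2)

theorem smo_al [Countable Γ] [μ.IsMulLeftInvariant] (hF : Frm ρ V ω) (hd : DenseRange κ)
    (hb : Smo ι κ ρ V ω μ b) (h : H) : Smo ι κ ρ V ω μ (al κ V h b) where
  toFd := fd_al hF hd hb.toFd hb.acont h
  acont := acont_al hF hd hb.acont h
  l2 := by
    rw [l2_iff (fd_al hF hd hb.toFd hb.acont h), lintegral_al hF hd hb.toFd hb.acont]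
    exact (l2_iff hb.toFd).1 hb.l2

/-- The vector of a smooth field in `L²(G; K)`. -/
noncomputable def vec (hb : Smo ι κ ρ V ω μ b) : Lp K 2 μ := hb.l2.toLp (fun x => b x ω)

theorem norm_vec_al [Countable Γ] [μ.IsMulLeftInvariant] (hF : Frm ρ V ω) (hd : DenseRange κ)
    (hb : Smo ι κ ρ V ω μ b) (h : H) : ‖vec (smo_al hF hd hb h)‖ = ‖vec hb‖ :=
  norm_toLp_congr _ _ (lintegral_al hF hd hb.toFd hb.acont h)

theorem norm_vec_rt [μ.IsMulRightInvariant] (hb : Smo ι κ ρ V ω μ b) (z : G) :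
    ‖vec (smo_rt hb z)‖ = ‖vec hb‖ := norm_toLp_congr _ _ (lintegral_rt b ω z)

theorem norm_vec_cj [Countable Γ] [μ.IsMulLeftInvariant] (hF : Frm ρ V ω)
    (hb : Smo ι κ ρ V ω μ b) (v : Λ) : ‖vec (smo_cj hF hb v)‖ = ‖vec hb‖ :=
  norm_toLp_congr _ _ (lintegral_cj hF hb.toFd v)

theorem norm_vec_adj [Countable Γ] [μ.IsMulLeftInvariant] (hF : Frm ρ V ω)
    (hb : Smo ι κ ρ V ω μ b) : ‖vec (smo_adj hF hb)‖ = ‖vec hb‖ :=
  norm_toLp_congr _ _ (lintegral_adj hF.reg hb.toFd)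

theorem norm_apply_sub_le (S T : K →L[ℂ] K) (hω : ‖ω‖ = 1) {ε : ℝ} (h : ‖S - T‖ ≤ ε) :
    ‖S ω - T ω‖ ≤ ε := by
  rw [← sub_apply]
  refine ((S - T).le_opNorm _).trans ?_
  rw [hω, mul_one]
  exact h

/-- `h ↦ α_h b` is continuous in `L²`. -/
theorem continuous_vec_al [Countable Γ] [μ.IsMulLeftInvariant] (hF : Frm ρ V ω)
    (hd : DenseRange κ) (hb : Smo ι κ ρ V ω μ b) :
    Continuous fun h => vec (smo_al hF hd hb h) := by
  rw [continuous_iff_continuousAt]
  intro k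
  refine tendsto_toLp (fun h => (smo_al hF hd hb h).l2) (smo_al hF hd hb k).l2 (fun h => ?_)
    fun ε hε => ?_
  · exact ((norm_vec_al hF hd hb h).trans (norm_vec_al hF hd hb k).symm).le
  · filter_upwards [al_unif' hF hd hb.acont k hε] with h hh x
    exact norm_apply_sub_le _ _ hF.norm_omega (hh x)

/-- `V_v b V_v⁻¹ → α_h b` in `L²` as `κ v → h`. -/
theorem tendsto_vec_cj [Countable Γ] [μ.IsMulLeftInvariant] (hF : Frm ρ V ω)
    (hd : DenseRange κ) (hb : Smo ι κ ρ V ω μ b) (h : H) :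
    Tendsto (fun v => vec (smo_cj hF hb v)) (comap κ (𝓝 h)) (𝓝 (vec (smo_al hF hd hb h))) := by
  refine tendsto_toLp (fun v => (smo_cj hF hb v).l2) (smo_al hF hd hb h).l2 (fun v => ?_)
    fun ε hε => ?_
  · exact ((norm_vec_cj hF hb v).trans (norm_vec_al hF hd hb h).symm).le
  · filter_upwards [al_spec hF hd hb.acont h hε] with v hv x
    exact norm_apply_sub_le _ _ hF.norm_omega (hv x)

/-- `y ↦ r_y b` is continuous in `L²`. -/
theorem continuous_vec_rt [μ.IsMulRightInvariant] (hF : Frm ρ V ω)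
    (hb : Smo ι κ ρ V ω μ b) : Continuous fun z => vec (smo_rt hb z) := by
  rw [continuous_iff_continuousAt]
  intro z
  refine tendsto_toLp (fun y => (smo_rt hb y).l2) (smo_rt hb z).l2 (fun y => ?_)
    fun ε hε => ?_
  · exact ((norm_vec_rt hb y).trans (norm_vec_rt hb z).symm).le
  · filter_upwards [rt_unif hb.toFd z hε] with y hy x
    exact norm_apply_sub_le _ _ hF.norm_omega (hy x)

/-! ### Inner products -/

theorem ip_eq_inner (ha : Smo ι κ ρ V ω μ a) (hb : Smo ι κ ρ V ω μ b) :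
    ip ω μ a b = ⟪vec ha, vec hb⟫_ℂ := (inner_toLp ha.l2 hb.l2).symm

theorem vec_add (ha : Smo ι κ ρ V ω μ a) (hb : Smo ι κ ρ V ω μ b) :
    vec (smo_add ha hb) = vec ha + vec hb := (MemLp.toLp_add ha.l2 hb.l2)

theorem vec_sub (ha : Smo ι κ ρ V ω μ a) (hb : Smo ι κ ρ V ω μ b) :
    vec (smo_sub ha hb) = vec ha - vec hb := (MemLp.toLp_sub ha.l2 hb.l2)

theorem vec_smul (c : ℂ) (hb : Smo ι κ ρ V ω μ b) :
    vec (smo_smul c hb) = c • vec hb := (MemLp.toLp_const_smul c hb.l2)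

theorem vec_congr {b' : G → K →L[ℂ] K} (hb : Smo ι κ ρ V ω μ b) (hb' : Smo ι κ ρ V ω μ b')
    (h : ∀ x, b x = b' x) : vec hb = vec hb' :=
  MemLp.toLp_congr _ _ (Eventually.of_forall fun x => by simp only [h])

/-- Polarisation: an operation on smooth fields which is linear and preserves the norm preserves the
inner product. -/
theorem ip_of_norm {F : (G → K →L[ℂ] K) → (G → K →L[ℂ] K)}
    (hS : ∀ b, Smo ι κ ρ V ω μ b → Smo ι κ ρ V ω μ (F b))
    (hadd : ∀ a b, Smo ι κ ρ V ω μ a → Smo ι κ ρ V ω μ b →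
      ∀ x, F (fun x => a x + b x) x = F a x + F b x)
    (hsmul : ∀ (c : ℂ) b, Smo ι κ ρ V ω μ b → ∀ x, F (fun x => c • b x) x = c • F b x)
    (hn : ∀ b (hb : Smo ι κ ρ V ω μ b), ‖vec (hS b hb)‖ = ‖vec hb‖)
    (ha : Smo ι κ ρ V ω μ a) (hb : Smo ι κ ρ V ω μ b) :
    ip ω μ (F a) (F b) = ip ω μ a b := by
  rw [ip_eq_inner (hS a ha) (hS b hb), ip_eq_inner ha hb]
  have key : ∀ c : ℂ, ‖vec (hS a ha) + c • vec (hS b hb)‖ = ‖vec ha + c • vec hb‖ := by
    intro c
    have h1 := hn _ (smo_add ha (smo_smul c hb))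
    rw [vec_add ha (smo_smul c hb), vec_smul c hb] at h1
    rw [← h1]
    have h2 : vec (hS _ (smo_add ha (smo_smul c hb))) =
        vec (smo_add (hS a ha) (smo_smul c (hS b hb))) := by
      refine vec_congr _ _ fun x => ?_
      rw [hadd a _ ha (smo_smul c hb), hsmul c b hb]
    rw [h2, vec_add (hS a ha) (smo_smul c (hS b hb)), vec_smul c (hS b hb)]
  have h1 := key 1
  have h2 := key (-1)
  have h3 := key Complex.I
  have h4 := key (-Complex.I)
  rw [one_smul, one_smul] at h1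
  rw [neg_smul, neg_smul, one_smul, one_smul, ← sub_eq_add_neg, ← sub_eq_add_neg] at h2
  rw [neg_smul, neg_smul, ← sub_eq_add_neg, ← sub_eq_add_neg] at h4
  rw [inner_eq_sum_norm_sq_div_four, inner_eq_sum_norm_sq_div_four (𝕜 := ℂ) (vec ha)]
  simp only [RCLike.I_to_complex]
  rw [h1, h2, h3, h4]

theorem ip_al [Countable Γ] [μ.IsMulLeftInvariant] (hF : Frm ρ V ω) (hd : DenseRange κ)
    (ha : Smo ι κ ρ V ω μ a) (hb : Smo ι κ ρ V ω μ b) (h : H) :
    ip ω μ (al κ V h a) (al κ V h b) = ip ω μ a b :=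
  ip_of_norm (F := al κ V h) (fun b hb => smo_al hF hd hb h)
    (fun a b ha hb x => al_add hF hd ha.acont hb.acont h x)
    (fun c b hb x => al_smul hF hd hb.acont c h x) (fun b hb => norm_vec_al hF hd hb h) ha hb

theorem ip_cj [Countable Γ] [μ.IsMulLeftInvariant] (hF : Frm ρ V ω)
    (ha : Smo ι κ ρ V ω μ a) (hb : Smo ι κ ρ V ω μ b) (v : Λ) :
    ip ω μ (cj V v a) (cj V v b) = ip ω μ a b :=
  ip_of_norm (F := cj V v) (fun b hb => smo_cj hF hb v)
    (fun a b ha hb x => cj_add v a b x)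
    (fun c b hb x => cj_smul v c b x) (fun b hb => norm_vec_cj hF hb v) ha hb

theorem ip_rt [μ.IsMulRightInvariant] (ha : Smo ι κ ρ V ω μ a) (hb : Smo ι κ ρ V ω μ b) (z : G) :
    ip ω μ (fun x => a (x * z)) (fun x => b (x * z)) = ip ω μ a b :=
  integral_mul_right_eq_self (fun x => ⟪a x ω, b x ω⟫_ℂ) z

/-- `(h, y) ↦ ⟨a, α_h r_y b⟩` is continuous. -/
theorem continuous_ip_al_rt [Countable Γ] [μ.IsMulLeftInvariant] [μ.IsMulRightInvariant]
    (hF : Frm ρ V ω) (hd : DenseRange κ) (ha : Smo ι κ ρ V ω μ a) (hb : Smo ι κ ρ V ω μ b) :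
    Continuous fun p : H × G => ip ω μ a (al κ V p.1 fun x => b (x * p.2)) := by
  have h0 : (fun p : H × G => ip ω μ a (al κ V p.1 fun x => b (x * p.2))) =
      fun p : H × G => ⟪vec (smo_al hF hd ha p.1⁻¹), vec (smo_rt hb p.2)⟫_ℂ := by
    funext p
    have h1 := ip_al hF hd ha (smo_al hF hd (smo_rt hb p.2) p.1) p.1⁻¹
    have h2 : ip ω μ (al κ V p.1⁻¹ a) (al κ V p.1⁻¹ (al κ V p.1 fun x => b (x * p.2))) =
        ip ω μ (al κ V p.1⁻¹ a) (fun x => b (x * p.2)) := by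
      refine integral_congr_ae (Eventually.of_forall fun x => ?_)
      simp only
      rw [al_al hF hd (ACont.rt hb.acont p.2), inv_mul_cancel, al_one hF hd (ACont.rt hb.acont p.2)]
    rw [← h1, h2, ip_eq_inner (smo_al hF hd ha p.1⁻¹) (smo_rt hb p.2)]
  rw [h0]
  refine Continuous.inner ?_ ?_
  · exact (continuous_vec_al hF hd ha).comp (continuous_fst.inv)
  · exact (continuous_vec_rt hF hb).comp continuous_snd

end smo

end Vale.Agent.P092.QT.H650
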